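import Vale.Agent.P333.H354.Tie

set_option autoImplicit false

/-! P333: the strings of the family and of the run. -/

namespace Vale.Agent.P333.H354.T1

def s0 : List ℕ :=
  [4, 0, 1, 1, 1, 1, 1, 1, 1, 2, 1, 3, 0, 1, 1, 1, 1, 1, 1, 1, 2, 1, 3, 0, 1, 1, 1, 1, 1, 1, 1,
  2, 1, 3, 0, 1, 1, 1, 1, 1, 1, 1, 2, 1, 3, 0, 1, 1, 1, 1, 1, 1, 1, 2, 1, 3, 0, 1, 1, 1, 1, 1, 1,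
  1, 2, 1, 3, 0, 1, 1, 1, 1, 1, 1, 1, 2, 1, 3, 0, 1, 1, 1, 1, 1, 1, 1, 2, 1, 3, 0, 1, 1, 1, 1, 1,
  1, 1, 2, 1, 3, 0, 1, 1, 1, 1, 1, 1, 1, 2, 1, 3, 0, 1, 1, 1, 1, 1, 1, 1, 2, 1, 3, 0, 1, 1, 1, 1,
  1, 1, 1, 2, 1, 3, 0, 1, 1, 1, 1, 1, 1, 1, 2]

def s1 : List ℕ :=
  [0, 1, 1, 1, 1, 1, 1, 1, 2, 1, 3, 0, 1, 1, 1, 1, 1, 1, 1, 2, 1, 3, 0, 1, 1, 1, 1, 1, 1, 1, 2,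
  1, 3, 0, 1, 1, 1, 1, 1, 1, 1, 2, 1, 3, 0, 1, 1, 1, 1, 1, 1, 1, 2, 1, 3, 0, 1, 1, 1, 1, 1, 1, 1,
  2, 1, 3, 0, 1, 1, 1, 1, 1, 1, 1, 2, 1, 3, 0, 1, 1, 1, 1, 1, 1, 1, 2, 1, 3, 0, 1, 1, 1, 1, 1, 1,
  1, 2, 1, 3, 0, 1, 1, 1, 1, 1, 1, 1, 2, 1, 3, 0, 1, 1, 1, 1, 1, 1, 1, 2, 1, 3, 0, 1, 1, 1, 1, 1,
  1, 1, 2, 1, 3, 0, 1, 1, 1, 1, 1, 1, 1, 2, 1, 1, 1, 2, 1, 3, 0, 1, 1, 1, 1, 1, 1, 2, 1, 3, 0, 1,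
  1, 1, 1, 1, 1, 1, 2, 1, 3, 0, 1, 1, 1, 1, 1, 1, 1, 2, 1, 3, 0, 1, 1, 1, 1, 1, 1, 1, 2, 1, 3, 0,
  1, 1, 1, 1, 1, 1, 1, 2, 1, 3, 0, 1, 1, 1, 1, 1, 1, 1, 2, 1, 3, 0, 1, 1, 1]

def s2 : List ℕ :=
  [1, 1, 1, 1, 1, 2, 1, 3, 0, 1, 1, 1, 1, 1, 1, 1, 2, 1, 3, 0, 1, 1, 1, 1, 1, 1, 1, 2, 1, 3, 0,
  1, 1, 1, 1, 1, 1, 1, 2, 1, 3, 0, 1, 1, 1, 1, 1, 1, 1, 2, 1, 3, 0, 1, 1, 1, 1, 1, 1, 1, 2, 1, 3,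
  0, 1, 1, 1, 1, 1, 1, 1, 2, 1, 3, 0, 1, 1, 1, 1, 1, 1, 1, 2, 1, 3, 0, 1, 1, 1, 1, 1, 1, 1, 2, 1,
  1, 1, 2, 1, 3, 0, 1, 1, 1, 1, 1, 1, 2, 1, 3, 0, 1, 1, 1, 1, 1, 1, 1, 2, 1, 3, 0, 1, 1, 1, 1, 1,
  1, 1, 2, 1, 3, 0, 1, 1, 1, 1, 1, 1, 1, 2, 1, 3, 0, 1, 1, 1, 1, 1, 1, 1, 2, 1, 3, 0, 1, 1, 1, 1,
  1, 1, 1, 2, 1, 3, 0, 1, 1, 1, 1, 1, 1, 1, 2, 1, 1, 1, 2, 1, 3, 0, 1, 1, 1, 1, 1, 1]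

def s3 : List ℕ :=
  [1, 1, 1, 1, 1, 1, 2, 1, 3, 0, 1, 1, 1, 1, 1, 1, 1, 2, 1, 3, 0, 1, 1, 1, 1, 1, 1, 1, 2, 1, 3,
  0, 1, 1, 1, 1, 1, 1, 1, 2, 1, 3, 0, 1, 1, 1, 1, 1, 1, 1, 2, 1, 3, 0, 1, 1, 1, 1, 1, 1, 1, 2, 1,
  3, 0, 1, 1, 1, 1, 1, 1, 1, 2, 1, 1, 1, 2, 1, 3, 0, 1, 1, 1, 1, 1, 1, 2, 1, 3, 0, 1, 1, 1, 1, 1,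
  1, 1, 2, 1, 3, 0, 1, 1, 1, 1, 1, 1, 1, 2, 1, 3, 0, 1, 1, 1, 1, 1, 1, 1, 2, 1, 3, 0, 1, 1, 1, 1,
  1, 1, 1, 2, 1, 3, 0, 1, 1, 1, 1, 1, 1, 1, 2, 1, 3, 0, 1, 1, 1, 1, 1, 1, 1, 2, 1, 1, 1, 2, 1, 3,
  0, 1, 1, 1, 1, 1, 1, 1, 2, 1, 3, 0, 1, 1, 1, 1, 1, 1, 1, 2, 1, 2, 1, 3, 0, 1, 1, 1, 1, 1, 1, 2,
  1, 3, 0, 1, 1, 1, 1, 1, 1, 1, 2, 1, 3, 0, 1, 1, 1, 1, 1, 1, 1, 2, 1, 3, 0, 1, 1, 1, 1, 1, 1, 1,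
  2, 1, 3, 0, 1, 1, 1, 1, 1, 1, 1, 2, 1, 3, 0, 1, 1, 1, 1, 1, 1, 1, 2, 1]

def s4 : List ℕ :=
  [1, 2, 1, 3, 0, 1, 1, 1, 1, 1, 1, 2, 1, 3, 0, 1, 1, 1, 1, 1, 1, 1, 2, 1, 3, 0, 1, 1, 1, 1, 1,
  1, 1, 2, 1, 3, 0, 1, 1, 1, 1, 1, 1, 1, 2, 1, 3, 0, 1, 1, 1, 1, 1, 1, 1, 2, 1, 3, 0, 1, 1, 1, 1,
  1, 1, 1, 2, 1, 3, 0, 1, 1, 1, 1, 1, 1, 1, 2, 1, 1, 1, 2, 1, 3, 0, 1, 1, 1, 1, 1, 1, 1, 2, 1, 3,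
  0, 1, 1, 1, 1, 1, 1, 1, 2, 1, 2, 1, 3, 0, 1, 1, 1, 1, 1, 1, 2, 1, 3, 0, 1, 1, 1, 1, 1, 1, 1, 2,
  1, 3, 0, 1, 1, 1, 1, 1, 1, 1, 2, 1, 3, 0, 1, 1, 1, 1, 1, 1, 1, 2, 1, 3, 0, 1, 1, 1, 1, 1, 1, 1,
  2, 1, 3, 0, 1, 1, 1, 1, 1, 1, 1, 2, 1, 1, 1, 2, 1, 3, 0, 1, 1, 1, 1, 1, 1, 1, 2, 1, 3, 0, 1, 1,
  1, 1, 1, 1, 1, 2, 1]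

def s5 : List ℕ :=
  [1, 1, 1, 1, 1, 2, 1, 3, 0, 1, 1, 1, 1, 1, 1, 1, 2, 1, 3, 0, 1, 1, 1, 1, 1, 1, 1, 2, 1, 3, 0,
  1, 1, 1, 1, 1, 1, 1, 2, 1, 3, 0, 1, 1, 1, 1, 1, 1, 1, 2, 1, 3, 0, 1, 1, 1, 1, 1, 1, 1, 2, 1, 1,
  1, 2, 1, 3, 0, 1, 1, 1, 1, 1, 1, 1, 2, 1, 3, 0, 1, 1, 1, 1, 1, 1, 1, 2, 1, 2, 1, 3, 0, 1, 1, 1,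
  1, 1, 1, 2, 1, 3, 0, 1, 1, 1, 1, 1, 1, 1, 2, 1, 3, 0, 1, 1, 1, 1, 1, 1, 1, 2, 1, 3, 0, 1, 1, 1,
  1, 1, 1, 1, 2, 1, 3, 0, 1, 1, 1, 1, 1, 1, 1, 2, 1, 3, 0, 1, 1, 1, 1, 1, 1, 1, 2, 1, 1, 1, 2, 1,
  3, 0, 1, 1, 1, 1, 1, 1, 1, 2, 1, 3, 0, 1, 1, 1, 1, 1, 1, 1, 2, 1, 3, 0, 1, 1, 1, 1, 1, 1, 1, 2,
  1, 1, 1, 2, 1, 3, 0, 1, 1, 1, 1, 1, 1, 1, 2, 1, 3, 0]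

def s6 : List ℕ :=
  [1, 1, 1, 2, 1, 3, 0, 1, 1, 1, 1, 1, 1, 1, 2, 1, 3, 0, 1, 1, 1, 1, 1, 1, 1, 2, 1, 3, 0, 1, 1,
  1, 1, 1, 1, 1, 2, 1, 1, 1, 2, 1, 3, 0, 1, 1, 1, 1, 1, 1, 1, 2, 1, 3, 0, 1, 1, 1, 1, 1, 1, 1, 2,
  1, 2, 1, 3, 0, 1, 1, 1, 1, 1, 1, 2, 1, 3, 0, 1, 1, 1, 1, 1, 1, 1, 2, 1, 3, 0, 1, 1, 1, 1, 1, 1,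
  1, 2, 1, 3, 0, 1, 1, 1, 1, 1, 1, 1, 2, 1, 3, 0, 1, 1, 1, 1, 1, 1, 1, 2, 1, 3, 0, 1, 1, 1, 1, 1,
  1, 1, 2, 1, 1, 1, 2, 1, 3, 0, 1, 1, 1, 1, 1, 1, 1, 2, 1, 3, 0, 1, 1, 1, 1, 1, 1, 1, 2, 1, 3, 0,
  1, 1, 1, 1, 1, 1, 1, 2, 1, 1, 1, 2, 1, 3, 0, 1, 1, 1, 1, 1, 1, 1, 2, 1, 3, 0, 5]

def s7 : List ℕ :=
  [1, 1, 1, 2, 1, 3, 0, 1, 1, 1, 1, 1, 1, 1, 2, 1, 3, 0, 1, 1, 1, 1, 1, 1, 1, 2, 1, 3, 0, 1, 1,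
  1, 1, 1, 1, 1, 2, 1, 3, 0, 1, 1, 1, 1, 1, 1, 1, 2, 1, 3, 0, 1, 1, 1, 1, 1, 1, 1, 2, 1, 3, 0, 1,
  1, 1, 1, 1, 1, 1, 2, 1, 3, 0, 1, 1, 1, 1, 1, 1, 1, 2, 1, 3, 0, 1, 1, 1, 1, 1, 1, 1, 2, 1, 3, 0,
  1, 1, 1, 1, 1, 1, 1, 2, 1, 3, 0, 1, 1, 1, 1, 1, 1, 1, 2, 1, 3, 0, 1, 1, 1, 1, 1, 1, 1, 2, 1, 3,
  0, 1, 1, 1, 1, 1, 1, 1, 2, 1, 3, 0, 1, 1, 1, 1, 1, 1, 1]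

def s8 : List ℕ :=
  [1, 1, 1, 1, 1, 1, 1, 2, 1, 3, 0, 1, 1, 1, 1, 1, 1, 1, 2, 1, 3, 0, 1, 1, 1, 1, 1, 1, 1, 2, 1,
  3, 0, 1, 1, 1, 1, 1, 1, 1, 2, 1, 3, 0, 1, 1, 1, 1, 1, 1, 1, 2, 1, 3, 0, 1, 1, 1, 1, 1, 1, 1, 2,
  1, 3, 0, 1, 1, 1, 1, 1, 1, 1, 2, 1, 3, 0, 1, 1, 1, 1, 1, 1, 1, 2, 1, 3, 0, 1, 1, 1, 1, 1, 1, 1,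
  2, 1, 3, 0, 1, 1, 1, 1, 1, 1, 1, 2, 1, 3, 0, 1, 1, 1, 1, 1, 1, 1, 2, 1, 3, 0, 1, 1, 1, 1, 1, 1,
  1, 2, 1, 3, 0, 1, 1, 1, 1, 1, 1, 1, 2, 1, 3, 0, 1]

def s9 : List ℕ :=
  [0, 1, 1, 1, 1, 1, 1, 1, 2, 1, 3, 0, 1, 1, 1, 1, 1, 1, 1, 2, 1, 3, 0, 1, 1, 1, 1, 1, 1, 1, 2,
  1, 1, 1, 2, 1, 3, 0, 1, 1, 1, 1, 1, 1, 2, 1, 3, 0, 1, 1, 1, 1, 1, 1, 1, 2, 1, 3, 0, 1, 1, 1, 1,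
  1, 1, 1, 2, 1, 3, 0, 1, 1, 1, 1, 1, 1, 1, 2, 1, 3, 0, 1, 1, 1, 1, 1, 1, 1, 2, 1, 3, 0, 1, 1, 1,
  1, 1, 1, 1, 2, 1, 3, 0, 1, 1, 1, 1, 1, 1, 1, 2, 1, 3, 0, 1, 1, 1, 1, 1, 1, 1, 2, 1, 3, 0, 1, 1,
  1, 1, 1, 1, 1, 2, 1, 1, 1, 2, 1, 3, 0, 1, 1, 1, 1, 1, 1, 2, 1, 3, 0, 1, 1, 1, 1, 1, 1, 1, 2, 1,
  3, 0, 1, 1, 1, 1, 1, 1, 1, 2, 1, 3, 0, 1, 1, 1, 1, 1, 1, 1, 2, 1, 3, 0, 1, 1, 1, 1, 1, 1, 1, 2,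
  1, 3, 0, 1, 1, 1, 1, 1, 1, 1, 2, 1, 3, 0, 1, 1]

def s10 : List ℕ :=
  [1, 1, 1, 1, 2, 1, 3, 0, 1, 1, 1, 1, 1, 1, 1, 2, 1, 3, 0, 1, 1, 1, 1, 1, 1, 1, 2, 1, 3, 0, 1,
  1, 1, 1, 1, 1, 1, 2, 1, 3, 0, 1, 1, 1, 1, 1, 1, 1, 2, 1, 3, 0, 1, 1, 1, 1, 1, 1, 1, 2, 1, 3, 0,
  1, 1, 1, 1, 1, 1, 1, 2, 1, 3, 0, 1, 1, 1, 1, 1, 1, 1, 2, 1, 3, 0, 1, 1, 1, 1, 1, 1, 1, 2, 1, 1,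
  1, 2, 1, 3, 0, 1, 1, 1, 1, 1, 1, 2, 1, 3, 0, 1, 1, 1, 1, 1, 1, 1, 2, 1, 3, 0, 1, 1, 1, 1, 1, 1,
  1, 2, 1, 3, 0, 1, 1, 1, 1, 1, 1, 1, 2, 1, 3, 0, 1, 1, 1, 1, 1, 1, 1, 2, 1, 3, 0, 1, 1, 1, 1, 1,
  1, 1, 2, 1, 3, 0, 1, 1, 1, 1, 1, 1, 1, 2, 1, 3, 0, 1, 1, 1, 1, 1, 1, 1, 2, 1, 3, 0, 1, 1, 1, 1,
  1, 1, 1, 2, 1, 1, 1, 2, 1, 3, 0, 1, 1, 1, 1, 1, 1, 2, 1, 3, 0, 1, 1, 1, 1, 1, 1, 1, 2, 1, 3, 0,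
  1, 1]

def s11 : List ℕ :=
  [2, 1, 1, 1, 2, 1, 3, 0, 1, 1, 1, 1, 1, 1, 2, 1, 3, 0, 1, 1, 1, 1, 1, 1, 1, 2, 1, 3, 0, 1, 1,
  1, 1, 1, 1, 1, 2, 1, 3, 0, 1, 1, 1, 1, 1, 1, 1, 2, 1, 3, 0, 1, 1, 1, 1, 1, 1, 1, 2, 1, 3, 0, 1,
  1, 1, 1, 1, 1, 1, 2, 1, 3, 0, 1, 1, 1, 1, 1, 1, 1, 2, 1, 1, 1, 2, 1, 3, 0, 1, 1, 1, 1, 1, 1, 2,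
  1, 3, 0, 1, 1, 1, 1, 1, 1, 1, 2, 1, 3, 0, 1, 1, 1, 1, 1, 1, 1, 2, 1, 3, 0, 1, 1, 1, 1, 1, 1, 1,
  2, 1, 3, 0, 1, 1, 1, 1, 1, 1, 1, 2, 1, 3, 0, 1, 1, 1, 1, 1, 1, 1, 2, 1, 3, 0, 1, 1, 1, 1, 1, 1,
  1, 2, 1, 1, 1, 2, 1, 3, 0, 1, 1, 1, 1, 1]

def s12 : List ℕ :=
  [1, 1, 1, 1, 1, 2, 1, 3, 0, 1, 1, 1, 1, 1, 1, 1, 2, 1, 3, 0, 1, 1, 1, 1, 1, 1, 1, 2, 1, 3, 0,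
  1, 1, 1, 1, 1, 1, 1, 2, 1, 3, 0, 1, 1, 1, 1, 1, 1, 1, 2, 1, 3, 0, 1, 1, 1, 1, 1, 1, 1, 2, 1, 3,
  0, 1, 1, 1, 1, 1, 1, 1, 2, 1, 1, 1, 2, 1, 3, 0, 1, 1, 1, 1, 1, 1, 2, 1, 3, 0, 1, 1, 1, 1, 1, 1,
  1, 2, 1, 3, 0, 1, 1, 1, 1, 1, 1, 1, 2, 1, 3, 0, 1, 1, 1, 1, 1, 1, 1, 2, 1, 3, 0, 1, 1, 1, 1, 1,
  1, 1, 2, 1, 3, 0, 1, 1, 1, 1, 1, 1, 1, 2, 1, 3, 0, 1, 1, 1, 1, 1, 1, 1, 2, 1, 1, 1, 2, 1, 3, 0,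
  1, 1, 1, 1, 1, 1, 2, 1, 3, 0, 1, 1, 1, 1, 1, 1, 1, 2, 1, 3, 0, 1, 1, 1, 1, 1, 1, 1, 2, 1, 3, 0,
  1, 1, 1, 1, 1, 1, 1, 2, 1, 3, 0, 1, 1, 1, 1, 1, 1, 1, 2, 1, 3, 0, 1, 1, 1, 1, 1, 1, 1, 2, 1, 3,
  0, 1, 1, 1, 1, 1, 1, 1, 2, 1, 1]

def s13 : List ℕ :=
  [2, 1, 3, 0, 1, 1, 1, 1, 1, 1, 1, 2, 1, 1, 1, 2, 1, 3, 0, 1, 1, 1, 1, 1, 1, 1, 2, 1, 3, 0, 1,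
  1, 1, 1, 1, 1, 1, 2, 1, 2, 1, 3, 0, 1, 1, 1, 1, 1, 1, 2, 1, 3, 0, 1, 1, 1, 1, 1, 1, 1, 2, 1, 3,
  0, 1, 1, 1, 1, 1, 1, 1, 2, 1, 3, 0, 1, 1, 1, 1, 1, 1, 1, 2, 1, 3, 0, 1, 1, 1, 1, 1, 1, 1, 2, 1,
  3, 0, 1, 1, 1, 1, 1, 1, 1, 2, 1, 3, 0, 1, 1, 1, 1, 1, 1, 1, 2, 1, 1, 1, 2, 1, 3, 0, 1, 1, 1, 1,
  1, 1, 1, 2, 1, 3, 0, 1, 1, 1, 1, 1, 1, 1, 2, 1, 2, 1, 3, 0, 1, 1, 1, 1, 1, 1, 2, 1, 3, 0, 1, 1,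
  1, 1, 1, 1, 1, 2, 1, 3, 0, 1, 1, 1, 1, 1, 1, 1, 2, 1, 3, 0, 1, 1, 1, 1, 1, 1, 1, 2, 1, 3, 0, 1,
  1, 1, 1, 1, 1, 1, 2, 1, 3, 0, 1, 1, 1, 1, 1, 1, 1, 2]

def s14 : List ℕ :=
  [2, 1, 3, 0, 1, 1, 1, 1, 1, 1, 2, 1, 3, 0, 1, 1, 1, 1, 1, 1, 1, 2, 1, 3, 0, 1, 1, 1, 1, 1, 1,
  1, 2, 1, 3, 0, 1, 1, 1, 1, 1, 1, 1, 2, 1, 3, 0, 1, 1, 1, 1, 1, 1, 1, 2, 1, 3, 0, 1, 1, 1, 1, 1,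
  1, 1, 2, 1, 3, 0, 1, 1, 1, 1, 1, 1, 1, 2, 1, 1, 1, 2, 1, 3, 0, 1, 1, 1, 1, 1, 1, 1, 2, 1, 3, 0,
  1, 1, 1, 1, 1, 1, 1, 2, 1, 2, 1, 3, 0, 1, 1, 1, 1, 1, 1, 2, 1, 3, 0, 1, 1, 1, 1, 1, 1, 1, 2, 1,
  3, 0, 1, 1, 1, 1, 1, 1, 1, 2, 1, 3, 0, 1, 1, 1, 1, 1, 1, 1, 2, 1, 3, 0, 1, 1, 1, 1, 1, 1, 1, 2,
  1, 3, 0, 1, 1, 1, 1, 1, 1, 1, 2, 1, 3, 0, 1, 1, 1, 1, 1, 1, 1, 2, 1, 1, 1, 2, 1, 3, 0, 1, 1, 1,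
  1, 1, 1, 1, 2, 1, 3, 0, 1, 1, 1, 1, 1, 1, 1, 2, 1, 2, 1, 3, 0, 1, 1, 1, 1, 1, 1, 2, 1, 3, 0, 1,
  1, 1, 1, 1, 1, 1, 2, 1, 3, 0, 1]

def s15 : List ℕ :=
  [2, 1, 2, 1, 3, 0, 1, 1, 1, 1, 1, 1, 2, 1, 3, 0, 1, 1, 1, 1, 1, 1, 1, 2, 1, 3, 0, 1, 1, 1, 1,
  1, 1, 1, 2, 1, 3, 0, 1, 1, 1, 1, 1, 1, 1, 2, 1, 3, 0, 1, 1, 1, 1, 1, 1, 1, 2, 1, 3, 0, 1, 1, 1,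
  1, 1, 1, 1, 2, 1, 1, 1, 2, 1, 3, 0, 1, 1, 1, 1, 1, 1, 1, 2, 1, 3, 0, 1, 1, 1, 1, 1, 1, 1, 2, 1,
  2, 1, 3, 0, 1, 1, 1, 1, 1, 1, 2, 1, 3, 0, 1, 1, 1, 1, 1, 1, 1, 2, 1, 3, 0, 1, 1, 1, 1, 1, 1, 1,
  2, 1, 3, 0, 1, 1, 1, 1, 1, 1, 1, 2, 1, 3, 0, 1, 1, 1, 1, 1, 1, 1, 2, 1, 3, 0, 1, 1, 1, 1, 1, 1,
  1, 2, 1, 1, 1, 2, 1, 3, 0, 1, 1, 1, 1, 1, 1, 1, 2, 1, 3, 0, 1, 1, 1, 1, 1, 1, 1, 2]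

def s16 : List ℕ :=
  [1, 1, 1, 1, 2, 1, 3, 0, 1, 1, 1, 1, 1, 1, 1, 2, 1, 3, 0, 1, 1, 1, 1, 1, 1, 1, 2, 1, 3, 0, 1,
  1, 1, 1, 1, 1, 1, 2, 1, 3, 0, 1, 1, 1, 1, 1, 1, 1, 2, 1, 3, 0, 1, 1, 1, 1, 1, 1, 1, 2, 1, 1, 1,
  2, 1, 3, 0, 1, 1, 1, 1, 1, 1, 1, 2, 1, 3, 0, 1, 1, 1, 1, 1, 1, 1, 2, 1, 2, 1, 3, 0, 1, 1, 1, 1,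
  1, 1, 2, 1, 3, 0, 1, 1, 1, 1, 1, 1, 1, 2, 1, 3, 0, 1, 1, 1, 1, 1, 1, 1, 2, 1, 3, 0, 1, 1, 1, 1,
  1, 1, 1, 2, 1, 3, 0, 1, 1, 1, 1, 1, 1, 1, 2, 1, 3, 0, 1, 1, 1, 1, 1, 1, 1, 2, 1, 1, 1, 2, 1, 3,
  0, 1, 1, 1, 1, 1, 1, 1, 2, 1, 3, 0, 1, 1, 1, 1, 1, 1, 1, 2, 1, 2, 1, 3, 0, 1, 1, 1, 1, 1, 1, 2,
  1, 3, 0, 1, 1, 1, 1, 1, 1, 1, 2, 1, 3, 0, 1, 1, 1, 1, 1, 1, 1, 2, 1, 3, 0, 1, 1, 1, 1, 1, 1, 1,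
  2, 1, 3, 0, 1, 1, 1, 1, 1, 1, 1, 2, 1, 3, 0, 1, 1, 1, 1, 1, 1, 1, 2, 1, 1, 1, 2, 1, 3, 0, 1, 1,
  1, 1, 1, 1, 1, 2, 1, 3]

def s17 : List ℕ :=
  [2, 1, 1, 1, 2, 1, 3, 0, 1, 1, 1, 1, 1, 1, 1, 2, 1, 3, 0, 1, 1, 1, 1, 1, 1, 1, 2, 1, 3, 0, 1,
  1, 1, 1, 1, 1, 1, 2, 1, 1, 1, 2, 1, 3, 0, 1, 1, 1, 1, 1, 1, 1, 2, 1, 3, 0, 1, 1, 1, 1, 1, 1, 1,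
  2, 1, 2, 1, 3, 0, 1, 1, 1, 1, 1, 1, 2, 1, 3, 0, 1, 1, 1, 1, 1, 1, 1, 2, 1, 3, 0, 1, 1, 1, 1, 1,
  1, 1, 2, 1, 3, 0, 1, 1, 1, 1, 1, 1, 1, 2, 1, 3, 0, 1, 1, 1, 1, 1, 1, 1, 2, 1, 3, 0, 1, 1, 1, 1,
  1, 1, 1, 2, 1, 1, 1, 2, 1, 3, 0, 1, 1, 1, 1, 1, 1, 1, 2, 1, 3, 0, 1, 1, 1, 1, 1, 1, 1, 2, 1, 3,
  0, 1, 1, 1, 1, 1, 1, 1, 2, 1, 1, 1, 2, 1, 3, 0, 1, 1, 1, 1, 1, 1, 1, 2, 1, 3]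

def s18 : List ℕ :=
  [1, 1, 2, 1, 3, 0, 1, 1, 1, 1, 1, 1, 1, 2, 1, 3, 0, 1, 1, 1, 1, 1, 1, 1, 2, 1, 3, 0, 1, 1, 1,
  1, 1, 1, 1, 2, 1, 1, 1, 2, 1, 3, 0, 1, 1, 1, 1, 1, 1, 1, 2, 1, 3, 0, 1, 1, 1, 1, 1, 1, 1, 2, 1,
  2, 1, 3, 0, 1, 1, 1, 1, 1, 1, 2, 1, 3, 0, 1, 1, 1, 1, 1, 1, 1, 2, 1, 3, 0, 1, 1, 1, 1, 1, 1, 1,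
  2, 1, 3, 0, 1, 1, 1, 1, 1, 1, 1, 2, 1, 3, 0, 1, 1, 1, 1, 1, 1, 1, 2, 1, 3, 0, 1, 1, 1, 1, 1, 1,
  1, 2, 1, 1, 1, 2, 1, 3, 0, 1, 1, 1, 1, 1, 1, 1, 2, 1, 3, 0, 1, 1, 1, 1, 1, 1, 1, 2, 1, 3, 0, 1,
  1, 1, 1, 1, 1, 1, 2, 1, 1, 1, 2, 1, 3, 0, 1, 1, 1, 1, 1, 1, 1, 2, 1, 3, 0, 1, 1, 1, 1, 1, 1, 1,
  2, 1, 2, 1, 3, 0, 1, 1, 1, 1, 1, 1, 2, 1, 3, 0, 1, 1, 1, 1, 1, 1, 1, 2, 1, 3, 0, 1, 1, 1, 1, 1,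
  1, 1, 2, 1, 3, 0, 1, 1, 1, 1, 1, 1, 1, 2, 1, 3, 0, 1, 1, 1, 1, 1, 1, 1, 2, 1, 3, 0, 1, 1, 1, 1,
  1, 1, 1, 2, 1, 1, 1, 2, 1, 3, 0, 1, 1, 1, 1, 1, 1, 1, 2, 1, 3, 0, 1, 1, 1, 1, 1, 1, 1, 2, 1, 3,
  0, 1, 1, 1, 1, 1, 1, 1, 2, 1, 1, 1, 2, 1, 3, 0, 1, 1, 1, 1, 1, 1, 1]

def m0 : List ℕ :=
  [1, 1, 1, 1, 1, 2, 1, 3, 0, 1, 1, 1, 1, 1, 1, 1, 2, 1, 3, 0, 1, 1, 1, 1, 1, 1, 1, 2, 1, 3, 0,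
  1, 1, 1, 1, 1, 1, 1, 2, 1, 3, 0, 1, 1, 1, 1, 1, 1, 1, 2, 1, 3, 0, 1, 1, 1, 1, 1, 1, 1, 2, 1, 1,
  1, 2, 1, 3, 0, 1, 1, 1, 1, 1, 1, 1, 2, 1, 3, 0, 1, 1, 1, 1, 1, 1, 1, 2, 1, 2, 1, 3, 0, 1, 1, 1,
  1, 1, 1, 2, 1, 3, 0, 1, 1, 1, 1, 1, 1, 1, 2, 1, 3, 0, 1, 1, 1, 1, 1, 1, 1, 2, 1, 3, 0, 1, 1, 1,
  1, 1, 1, 1, 2, 1, 3, 0, 1, 1, 1, 1, 1, 1, 1, 2, 1, 3, 0, 1, 1, 1, 1, 1, 1, 1, 2, 1, 1, 1, 2, 1,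
  3, 0, 1, 1, 1, 1, 1, 1, 1, 2, 1, 3, 0, 1, 1, 1, 1, 1, 1, 1, 2, 1, 3, 0, 1, 1, 1, 1, 1, 1, 1, 2,
  1, 1, 1, 2, 1, 3, 0, 1, 1, 1, 1, 1, 1, 1, 2, 1, 3, 0, 5]

def m1 : List ℕ :=
  [2, 1, 1, 1, 2, 1, 3, 0, 1, 1, 1, 1, 1, 1, 1, 2, 1, 3, 0, 1, 1, 1, 1, 1, 1, 1, 2, 1, 3, 0, 1,
  1, 1, 1, 1, 1, 1, 2, 1, 1, 1, 2, 1, 3, 0, 1, 1, 1, 1, 1, 1, 1, 2, 1, 3, 0, 1, 1, 1, 1, 1, 1, 1,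
  2, 1, 2, 1, 3, 0, 1, 1, 1, 1, 1, 1, 2, 1, 3, 0, 1, 1, 1, 1, 1, 1, 1, 2, 1, 3, 0, 1, 1, 1, 1, 1,
  1, 1, 2, 1, 3, 0, 1, 1, 1, 1, 1, 1, 1, 2, 1, 3, 0, 1, 1, 1, 1, 1, 1, 1, 2, 1, 3, 0, 1, 1, 1, 1,
  1, 1, 1, 2, 1, 1, 1, 2, 1, 3, 0, 1, 1, 1, 1, 1, 1, 1, 2, 1, 3, 0, 1, 1, 1, 1, 1, 1, 1, 2, 1, 3,
  0, 1, 1, 1, 1, 1, 1, 1, 2, 1, 1, 1, 2, 1, 3, 0, 1, 1, 1, 1, 1, 1, 1, 2, 1, 3, 0, 1, 1, 1, 1, 1,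
  1, 1, 2, 1, 2, 1, 3, 0, 1, 1, 1, 1, 1, 1, 2, 1, 3, 0, 1, 1, 1, 1, 1, 1, 1, 2, 1, 3, 0, 1, 1, 1,
  1, 1, 1, 1, 2, 1, 3, 0, 1, 1, 1, 1, 1, 1, 1, 2, 1, 3, 0, 1, 1, 1, 1, 1, 1, 1, 2, 1, 3, 0, 1, 1,
  1, 1, 1, 1, 1, 2, 1, 1, 1, 2, 1, 3, 0, 1, 1, 1, 1, 1, 1, 1, 2, 1, 3, 0, 1, 1, 1, 1, 1, 1, 1, 2,
  1, 3, 0, 1, 1, 1, 1, 1, 1, 1, 2, 1, 1, 1, 2, 1, 3, 0, 1, 1, 1, 1, 1, 1, 1]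

def m2 : List ℕ :=
  [1, 2, 1, 3, 0, 1, 1, 1, 1, 1, 1, 2, 1, 3, 0, 1, 1, 1, 1, 1, 1, 1, 2, 1, 3, 0, 1, 1, 1, 1, 1,
  1, 1, 2, 1, 3, 0, 1, 1, 1, 1, 1, 1, 1, 2, 1, 3, 0, 1, 1, 1, 1, 1, 1, 1, 2, 1, 3, 0, 1, 1, 1, 1,
  1, 1, 1, 2, 1, 3, 0, 1, 1, 1, 1, 1, 1, 1, 2, 1, 1, 1, 2, 1, 3, 0, 1, 1, 1, 1, 1, 1, 1, 2, 1, 3,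
  0, 1, 1, 1, 1, 1, 1, 1, 2, 1, 2, 1, 3, 0, 1, 1, 1, 1, 1, 1, 2, 1, 3, 0, 1, 1, 1, 1, 1, 1, 1, 2,
  1, 3, 0, 1, 1, 1, 1, 1, 1, 1, 2, 1, 3, 0, 1, 1, 1, 1, 1, 1, 1, 2, 1, 3, 0, 1, 1, 1, 1, 1, 1, 1,
  2, 1, 3, 0, 1, 1, 1, 1, 1, 1, 1, 2, 1, 1, 1, 2, 1, 3, 0, 1, 1, 1, 1, 1, 1, 1, 2, 1, 3, 0, 1, 1,
  1, 1, 1, 1, 1, 2, 1, 3, 0, 1, 1, 1, 1, 1, 1, 1, 2, 1, 1, 1, 2, 1, 3, 0, 1, 1, 1, 1, 1, 1, 1, 2,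
  1, 3, 0, 5]

def m3 : List ℕ :=
  [2, 1, 2, 1, 3, 0, 1, 1, 1, 1, 1, 1, 2, 1, 3, 0, 1, 1, 1, 1, 1, 1, 1, 2, 1, 3, 0, 1, 1, 1, 1,
  1, 1, 1, 2, 1, 3, 0, 1, 1, 1, 1, 1, 1, 1, 2, 1, 3, 0, 1, 1, 1, 1, 1, 1, 1, 2, 1, 3, 0, 1, 1, 1,
  1, 1, 1, 1, 2, 1, 1, 1, 2, 1, 3, 0, 1, 1, 1, 1, 1, 1, 1, 2, 1, 3, 0, 1, 1, 1, 1, 1, 1, 1, 2, 1,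
  2, 1, 3, 0, 1, 1, 1, 1, 1, 1, 2, 1, 3, 0, 1, 1, 1, 1, 1, 1, 1, 2, 1, 3, 0, 1, 1, 1, 1, 1, 1, 1,
  2, 1, 3, 0, 1, 1, 1, 1, 1, 1, 1, 2, 1, 3, 0, 1, 1, 1, 1, 1, 1, 1, 2, 1, 3, 0, 1, 1, 1, 1, 1, 1,
  1, 2, 1, 1, 1, 2, 1, 3, 0, 1, 1, 1, 1, 1, 1, 1, 2, 1, 3, 0, 1, 1, 1, 1, 1, 1, 1, 2, 1, 2, 1, 3,
  0, 1, 1, 1, 1, 1, 1, 2, 1, 3, 0, 1, 1, 1, 1, 1, 1, 1, 2, 1, 3, 0, 1, 1, 1, 1, 1, 1, 1, 2, 1, 3,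
  0, 1, 1, 1, 1, 1, 1, 1, 2, 1, 3, 0, 1, 1, 1, 1, 1, 1, 1, 2, 1, 3, 0, 1, 1, 1, 1, 1, 1, 1, 2, 1,
  1, 1, 2, 1, 3, 0, 1, 1, 1, 1, 1, 1, 1, 2, 1, 3]

def m4 : List ℕ :=
  [1, 1, 1, 1, 1, 1, 2, 1, 3, 0, 1, 1, 1, 1, 1, 1, 1, 2, 1, 3, 0, 1, 1, 1, 1, 1, 1, 1, 2, 1, 3,
  0, 1, 1, 1, 1, 1, 1, 1, 2, 1, 3, 0, 1, 1, 1, 1, 1, 1, 1, 2, 1, 3, 0, 1, 1, 1, 1, 1, 1, 1, 2, 1,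
  3, 0, 1, 1, 1, 1, 1, 1, 1, 2, 1, 1, 1, 2, 1, 3, 0, 1, 1, 1, 1, 1, 1, 2, 1, 3, 0, 1, 1, 1, 1, 1,
  1, 1, 2, 1, 3, 0, 1, 1, 1, 1, 1, 1, 1, 2, 1, 3, 0, 1, 1, 1, 1, 1, 1, 1, 2, 1, 3, 0, 1, 1, 1, 1,
  1, 1, 1, 2, 1, 3, 0, 1, 1, 1, 1, 1, 1, 1, 2, 1, 3, 0, 1, 1, 1, 1, 1, 1, 1, 2, 1, 1, 1, 2, 1, 3,
  0, 1, 1, 1, 1, 1, 1, 1, 2, 1, 3, 0, 1, 1, 1, 1, 1, 1, 1, 2, 1, 2, 1, 3, 0, 1, 1, 1, 1, 1, 1, 2,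
  1, 3, 0, 1, 1, 1, 1, 1, 1, 1, 2, 1, 3, 0, 1, 1, 1, 1, 1, 1, 1, 2, 1, 3, 0, 1, 1, 1, 1, 1, 1, 1,
  2, 1, 3, 0, 1, 1, 1, 1, 1, 1, 1, 2, 1, 3, 0, 1, 1, 1, 1, 1, 1, 1, 2, 1, 1, 1, 2, 1, 3, 0, 1, 1,
  1, 1, 1, 1, 1, 2, 1, 3, 0, 1, 1, 1, 1, 1, 1, 1, 2, 1, 3, 0, 1, 1, 1, 1, 1, 1, 1, 2, 1, 1, 1, 2,
  1, 3, 0, 1, 1, 1, 1, 1, 1, 1, 2, 1, 3, 0, 5]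

def m5 : List ℕ :=
  [2, 1, 3, 0, 1, 1, 1, 1, 1, 1, 1, 2, 1, 1, 1, 2, 1, 3, 0, 1, 1, 1, 1, 1, 1, 1, 2, 1, 3, 0, 1,
  1, 1, 1, 1, 1, 1, 2, 1, 2, 1, 3, 0, 1, 1, 1, 1, 1, 1, 2, 1, 3, 0, 1, 1, 1, 1, 1, 1, 1, 2, 1, 3,
  0, 1, 1, 1, 1, 1, 1, 1, 2, 1, 3, 0, 1, 1, 1, 1, 1, 1, 1, 2, 1, 3, 0, 1, 1, 1, 1, 1, 1, 1, 2, 1,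
  3, 0, 1, 1, 1, 1, 1, 1, 1, 2, 1, 3, 0, 1, 1, 1, 1, 1, 1, 1, 2, 1, 1, 1, 2, 1, 3, 0, 1, 1, 1, 1,
  1, 1, 1, 2, 1, 3, 0, 1, 1, 1, 1, 1, 1, 1, 2, 1, 2, 1, 3, 0, 1, 1, 1, 1, 1, 1, 2, 1, 3, 0, 1, 1,
  1, 1, 1, 1, 1, 2, 1, 3, 0, 1, 1, 1, 1, 1, 1, 1, 2, 1, 3, 0, 1, 1, 1, 1, 1, 1, 1, 2, 1, 3, 0, 1,
  1, 1, 1, 1, 1, 1, 2, 1, 3, 0, 1, 1, 1, 1, 1, 1, 1, 2, 1, 3, 0, 1, 1, 1, 1, 1, 1, 1, 2, 1, 1, 1,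
  2, 1, 3, 0, 1, 1, 1, 1, 1, 1, 1, 2, 1, 3, 0, 1, 1, 1, 1, 1, 1, 1, 2, 1, 2, 1, 3, 0, 1, 1, 1, 1,
  1, 1, 2, 1, 3, 0, 1, 1, 1, 1, 1, 1, 1, 2, 1, 3, 0, 1]

def m6 : List ℕ :=
  [0, 1, 1, 1, 1, 1, 1, 1, 2, 1, 3, 0, 1, 1, 1, 1, 1, 1, 1, 2, 1, 3, 0, 1, 1, 1, 1, 1, 1, 1, 2,
  1, 3, 0, 1, 1, 1, 1, 1, 1, 1, 2, 1, 3, 0, 1, 1, 1, 1, 1, 1, 1, 2, 1, 3, 0, 1, 1, 1, 1, 1, 1, 1,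
  2, 1, 3, 0, 1, 1, 1, 1, 1, 1, 1, 2, 1, 3, 0, 1, 1, 1, 1, 1, 1, 1, 2, 1, 3, 0, 1, 1, 1, 1, 1, 1,
  1, 2, 1, 3, 0, 1, 1, 1, 1, 1, 1, 1, 2, 1, 3, 0, 1, 1, 1, 1, 1, 1, 1, 2, 1, 3, 0, 1, 1, 1, 1, 1,
  1, 1, 2, 1, 3, 0, 1, 1, 1, 1, 1, 1, 1, 2, 1, 1, 1, 2, 1, 3, 0, 1, 1, 1, 1, 1, 1, 2, 1, 3, 0, 1,
  1, 1, 1, 1, 1, 1, 2, 1, 3, 0, 1, 1, 1, 1, 1, 1, 1, 2, 1, 3, 0, 1, 1, 1, 1, 1, 1, 1, 2, 1, 3, 0,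
  1, 1, 1, 1, 1, 1, 1, 2, 1, 3, 0, 1, 1, 1, 1, 1, 1, 1, 2, 1, 3, 0, 1, 1, 1, 1, 1, 1, 1, 2, 1, 1,
  1, 2, 1, 3, 0, 1, 1, 1, 1, 1, 1]

def m7 : List ℕ :=
  [0, 1, 1, 1, 1, 1, 1, 1, 2, 1, 3, 0, 1, 1, 1, 1, 1, 1, 1, 2, 1, 3, 0, 1, 1, 1, 1, 1, 1, 1, 2,
  1, 1, 1, 2, 1, 3, 0, 1, 1, 1, 1, 1, 1, 2, 1, 3, 0, 1, 1, 1, 1, 1, 1, 1, 2, 1, 3, 0, 1, 1, 1, 1,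
  1, 1, 1, 2, 1, 3, 0, 1, 1, 1, 1, 1, 1, 1, 2, 1, 3, 0, 1, 1, 1, 1, 1, 1, 1, 2, 1, 3, 0, 1, 1, 1,
  1, 1, 1, 1, 2, 1, 3, 0, 1, 1, 1, 1, 1, 1, 1, 2, 1, 3, 0, 1, 1, 1, 1, 1, 1, 1, 2, 1, 3, 0, 1, 1,
  1, 1, 1, 1, 1, 2, 1, 1, 1, 2, 1, 3, 0, 1, 1, 1, 1, 1, 1, 2, 1, 3, 0, 1, 1, 1, 1, 1, 1, 1, 2, 1,
  3, 0, 1, 1, 1, 1, 1, 1, 1, 2, 1, 3, 0, 1, 1, 1, 1, 1, 1, 1, 2, 1, 3, 0, 1, 1, 1, 1, 1, 1, 1, 2,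
  1, 3, 0, 1, 1, 1, 1, 1, 1, 1, 2, 1, 3, 0, 1, 1, 1, 1, 1, 1, 1, 2, 1, 3, 0, 1, 1, 1, 1, 1, 1, 1,
  2, 1, 3, 0, 1, 1, 1, 1, 1, 1, 1, 2, 1, 1, 1, 2, 1, 3, 0, 1, 1, 1, 1, 1, 1, 2, 1, 3, 0, 1, 1, 1,
  1, 1, 1, 1, 2, 1, 3, 0, 1, 1]

def m8 : List ℕ :=
  [0, 1, 1, 1, 1, 1, 1, 1, 2, 1, 3, 0, 1, 1, 1, 1, 1, 1, 1, 2, 1, 3, 0, 1, 1, 1, 1, 1, 1, 1, 2,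
  1, 3, 0, 1, 1, 1, 1, 1, 1, 1, 2, 1, 3, 0, 1, 1, 1, 1, 1, 1, 1, 2, 1, 3, 0, 1, 1, 1, 1, 1, 1, 1,
  2, 1, 3, 0, 1, 1, 1, 1, 1, 1, 1, 2, 1, 3, 0, 1, 1, 1, 1, 1, 1, 1, 2, 1, 3, 0, 1, 1, 1, 1, 1, 1,
  1, 2, 1, 3, 0, 1, 1, 1, 1, 1, 1, 1, 2, 1, 3, 0, 1, 1, 1, 1, 1, 1, 1, 2, 1, 3, 0, 1, 1, 1, 1, 1,
  1, 1, 2, 1, 3, 0, 1, 1, 1, 1, 1, 1, 1, 2, 1, 1, 1, 2, 1, 3, 0, 1, 1, 1, 1, 1, 1, 2, 1, 3, 0, 1,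
  1, 1, 1, 1, 1, 1, 2, 1, 3, 0, 1, 1, 1, 1, 1, 1, 1, 2, 1, 3, 0, 1, 1, 1, 1, 1, 1, 1, 2, 1, 3, 0,
  1, 1, 1, 1, 1, 1, 1, 2, 1, 3, 0, 1, 1, 1, 1, 1, 1, 1, 2, 1, 3, 0, 1, 1, 1, 1, 1, 1, 1, 2, 1, 1,
  1, 2, 1, 3, 0, 1, 1, 1, 1, 1, 1, 1, 2, 1, 3, 0, 1, 1, 1, 1, 1, 1, 1, 2, 1, 2, 1, 3, 0, 1, 1, 1,
  1, 1, 1, 2, 1, 3, 0, 1, 1, 1, 1, 1, 1, 1, 2, 1, 3, 0, 1, 1, 1, 1, 1, 1, 1, 2, 1, 3, 0, 1, 1, 1,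
  1, 1, 1, 1, 2, 1, 3, 0, 1, 1, 1, 1, 1, 1, 1, 2, 1, 3, 0, 1, 1, 1, 1, 1, 1, 1, 2, 1, 1, 1, 2, 1,
  3, 0, 1, 1, 1, 1, 1, 1, 1, 2, 1, 3, 0, 1, 1, 1, 1, 1, 1, 1, 2, 1, 3, 0, 1, 1, 1, 1, 1, 1, 1, 2,
  1, 1, 1, 2, 1, 3, 0, 1, 1, 1, 1, 1, 1, 1, 2, 1, 3, 0, 5]

def m9 : List ℕ :=
  [2, 1, 1, 1, 2, 1, 3, 0, 1, 1, 1, 1, 1, 1, 2, 1, 3, 0, 1, 1, 1, 1, 1, 1, 1, 2, 1, 3, 0, 1, 1,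
  1, 1, 1, 1, 1, 2, 1, 3, 0, 1, 1, 1, 1, 1, 1, 1, 2, 1, 3, 0, 1, 1, 1, 1, 1, 1, 1, 2, 1, 3, 0, 1,
  1, 1, 1, 1, 1, 1, 2, 1, 3, 0, 1, 1, 1, 1, 1, 1, 1, 2, 1, 1, 1, 2, 1, 3, 0, 1, 1, 1, 1, 1, 1, 2,
  1, 3, 0, 1, 1, 1, 1, 1, 1, 1, 2, 1, 3, 0, 1, 1, 1, 1, 1, 1, 1, 2, 1, 3, 0, 1, 1, 1, 1, 1, 1, 1,
  2, 1, 3, 0, 1, 1, 1, 1, 1, 1, 1, 2, 1, 3, 0, 1, 1, 1, 1, 1, 1, 1, 2, 1, 3, 0, 1, 1, 1, 1, 1, 1,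
  1, 2, 1, 1, 1, 2, 1, 3, 0, 1, 1, 1, 1, 1, 1, 2, 1, 3, 0, 1, 1, 1, 1, 1, 1, 1, 2, 1, 3, 0, 1, 1,
  1, 1, 1, 1, 1, 2, 1, 3, 0, 1, 1, 1, 1, 1, 1, 1, 2, 1, 3, 0, 1, 1, 1, 1, 1, 1, 1, 2, 1, 3, 0, 1,
  1, 1, 1, 1, 1, 1, 2, 1, 3, 0, 1, 1, 1, 1, 1, 1, 1, 2, 1, 1]

def m10 : List ℕ :=
  [4, 0, 1, 1, 1, 1, 1, 1, 1, 2, 1, 3, 0, 1, 1, 1, 1, 1, 1, 1, 2, 1, 3, 0, 1, 1, 1, 1, 1, 1, 1,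
  2, 1, 3, 0, 1, 1, 1, 1, 1, 1, 1, 2, 1, 3, 0, 1, 1, 1, 1, 1, 1, 1, 2, 1, 3, 0, 1, 1, 1, 1, 1, 1,
  1, 2, 1, 3, 0, 1, 1, 1, 1, 1, 1, 1, 2, 1, 3, 0, 1, 1, 1, 1, 1, 1, 1, 2, 1, 3, 0, 1, 1, 1, 1, 1,
  1, 1, 2, 1, 3, 0, 1, 1, 1, 1, 1, 1, 1, 2, 1, 3, 0, 1, 1, 1, 1, 1, 1, 1, 2, 1, 3, 0, 1, 1, 1, 1,
  1, 1, 1, 2, 1, 3, 0, 1, 1, 1, 1, 1, 1, 1, 2, 1, 1, 1, 2, 1, 3, 0, 1, 1, 1, 1, 1, 1, 2, 1, 3, 0,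
  1, 1, 1, 1, 1, 1, 1, 2, 1, 3, 0, 1, 1, 1, 1, 1, 1, 1, 2, 1, 3, 0, 1, 1, 1, 1, 1, 1, 1, 2, 1, 3,
  0, 1, 1, 1, 1, 1, 1, 1, 2, 1, 3, 0, 1, 1, 1, 1, 1, 1, 1, 2, 1, 3, 0, 1, 1, 1, 1, 1, 1, 1, 2, 1,
  1, 1, 2, 1, 3, 0, 1, 1, 1, 1, 1, 1, 1, 2, 1, 3, 0, 1, 1, 1, 1, 1, 1, 1, 2, 1, 2, 1, 3, 0, 1, 1,
  1, 1, 1, 1, 2, 1, 3, 0, 1, 1, 1, 1, 1, 1, 1, 2, 1, 3, 0, 1, 1, 1, 1, 1, 1, 1, 2, 1, 3, 0, 1, 1,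
  1, 1, 1, 1, 1, 2, 1, 3, 0, 1, 1, 1, 1, 1, 1, 1, 2, 1, 3, 0, 1, 1, 1, 1, 1, 1, 1, 2, 1, 1, 1, 2,
  1, 3, 0, 1, 1, 1, 1, 1, 1, 1, 2, 1, 3, 0, 1, 1, 1, 1, 1, 1, 1, 2, 1, 3, 0, 1, 1, 1, 1, 1, 1, 1,
  2, 1, 1, 1, 2, 1, 3, 0, 1, 1, 1, 1, 1, 1, 1, 2, 1, 3, 0, 5]

def m11 : List ℕ :=
  [1, 1, 1, 1, 1, 1, 1, 2, 1, 3, 0, 1, 1, 1, 1, 1, 1, 1, 2, 1, 3, 0, 1, 1, 1, 1, 1, 1, 1, 2, 1,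
  3, 0, 1, 1, 1, 1, 1, 1, 1, 2, 1, 3, 0, 1, 1, 1, 1, 1, 1, 1, 2, 1, 3, 0, 1, 1, 1, 1, 1, 1, 1, 2,
  1, 3, 0, 1, 1, 1, 1, 1, 1, 1, 2, 1, 3, 0, 1, 1, 1, 1, 1, 1, 1, 2, 1, 3, 0, 1, 1, 1, 1, 1, 1, 1,
  2, 1, 3, 0, 1, 1, 1, 1, 1, 1, 1, 2, 1, 3, 0, 1, 1, 1, 1, 1, 1, 1, 2, 1, 3, 0, 1, 1, 1, 1, 1, 1,
  1, 2, 1, 3, 0, 1, 1, 1, 1, 1, 1, 1, 2, 1, 3, 0, 1, 1, 1, 1, 1, 1, 1]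

def m12 : List ℕ :=
  [2, 1, 1, 1, 2, 1, 3, 0, 1, 1, 1, 1, 1, 1, 2, 1, 3, 0, 1, 1, 1, 1, 1, 1, 1, 2, 1, 3, 0, 1, 1,
  1, 1, 1, 1, 1, 2, 1, 3, 0, 1, 1, 1, 1, 1, 1, 1, 2, 1, 3, 0, 1, 1, 1, 1, 1, 1, 1, 2, 1, 3, 0, 1,
  1, 1, 1, 1, 1, 1, 2, 1, 3, 0, 1, 1, 1, 1, 1, 1, 1, 2, 1, 1, 1, 2, 1, 3, 0, 1, 1, 1, 1, 1, 1, 2,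
  1, 3, 0, 1, 1, 1, 1, 1, 1, 1, 2, 1, 3, 0, 1, 1, 1, 1, 1, 1, 1, 2, 1, 3, 0, 1, 1, 1, 1, 1, 1, 1,
  2, 1, 3, 0, 1, 1, 1, 1, 1, 1, 1, 2, 1, 3, 0, 1, 1, 1, 1, 1, 1, 1, 2, 1, 3, 0, 1, 1, 1, 1, 1, 1,
  1, 2, 1, 1, 1, 2, 1, 3, 0, 1, 1, 1, 1, 1, 1, 2, 1, 3, 0, 1, 1, 1, 1, 1, 1, 1, 2, 1, 3, 0, 1, 1,
  1, 1, 1, 1, 1, 2, 1, 3, 0, 1, 1, 1, 1, 1, 1, 1, 2, 1, 3, 0, 1, 1, 1, 1, 1, 1, 1, 2, 1, 3, 0, 1,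
  1, 1, 1, 1, 1, 1, 2, 1, 3, 0, 1, 1, 1, 1, 1, 1, 1, 2, 1, 1, 1, 2, 1, 3, 0, 1, 1, 1, 1, 1, 1, 2,
  1, 3, 0, 1, 1, 1, 1, 1, 1, 1, 2, 1, 3, 0, 1, 1, 1, 1, 1, 1, 1, 2, 1, 3, 0, 1, 1, 1, 1, 1, 1, 1,
  2, 1, 3, 0, 1, 1, 1, 1, 1, 1, 1, 2, 1, 3, 0, 1, 1, 1, 1, 1, 1, 1, 2, 1, 3, 0, 1, 1, 1, 1, 1, 1,
  1, 2, 1, 3, 0, 1, 1, 1, 1, 1, 1, 1, 2, 1, 3, 0, 1, 1, 1, 1, 1, 1, 1, 2, 1, 1, 1, 2, 1, 3, 0, 1,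
  1, 1, 1, 1, 1, 2, 1, 3, 0, 1, 1, 1, 1, 1, 1, 1, 2, 1, 3, 0, 1, 1, 1, 1, 1, 1, 1, 2, 1, 3, 0, 1,
  1, 1, 1, 1, 1, 1, 2, 1, 3, 0, 1, 1, 1, 1, 1, 1, 1, 2, 1, 3, 0, 1, 1, 1, 1, 1, 1, 1, 2, 1, 3, 0,
  1, 1, 1, 1, 1, 1, 1, 2, 1, 3, 0, 1, 1, 1, 1, 1, 1, 1, 2, 1, 3, 0, 1, 1, 1, 1, 1, 1, 1, 2, 1, 1,
  1, 2, 1, 3, 0, 1, 1, 1, 1, 1, 1, 2, 1, 3, 0, 1, 1, 1, 1, 1, 1, 1, 2, 1, 3, 0, 1, 1]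

def m13 : List ℕ :=
  [2, 1, 2, 1, 3, 0, 1, 1, 1, 1, 1, 1, 2, 1, 3, 0, 1, 1, 1, 1, 1, 1, 1, 2, 1, 3, 0, 1, 1, 1, 1,
  1, 1, 1, 2, 1, 3, 0, 1, 1, 1, 1, 1, 1, 1, 2, 1, 3, 0, 1, 1, 1, 1, 1, 1, 1, 2, 1, 3, 0, 1, 1, 1,
  1, 1, 1, 1, 2, 1, 1, 1, 2, 1, 3, 0, 1, 1, 1, 1, 1, 1, 1, 2, 1, 3, 0, 1, 1, 1, 1, 1, 1, 1, 2, 1,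
  2, 1, 3, 0, 1, 1, 1, 1, 1, 1, 2, 1, 3, 0, 1, 1, 1, 1, 1, 1, 1, 2, 1, 3, 0, 1, 1, 1, 1, 1, 1, 1,
  2, 1, 3, 0, 1, 1, 1, 1, 1, 1, 1, 2, 1, 3, 0, 1, 1, 1, 1, 1, 1, 1, 2, 1, 3, 0, 1, 1, 1, 1, 1, 1,
  1, 2, 1, 1, 1, 2, 1, 3, 0, 1, 1, 1, 1, 1, 1, 1, 2, 1, 3, 0, 1, 1, 1, 1, 1, 1, 1, 2, 1, 2, 1, 3,
  0, 1, 1, 1, 1, 1, 1, 2, 1, 3, 0, 1, 1, 1, 1, 1, 1, 1, 2, 1, 3, 0, 1, 1, 1, 1, 1, 1, 1, 2, 1, 3,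
  0, 1, 1, 1, 1, 1, 1, 1, 2, 1, 3, 0, 1, 1, 1, 1, 1, 1, 1, 2, 1, 3, 0, 1, 1, 1, 1, 1, 1, 1, 2, 1,
  1, 1, 2, 1, 3, 0, 1, 1, 1, 1, 1, 1, 1, 2, 1, 3, 0, 1, 1, 1, 1, 1, 1, 1, 2, 1, 2, 1, 3, 0, 1, 1,
  1, 1, 1, 1, 2, 1, 3, 0, 1, 1, 1, 1, 1, 1, 1, 2, 1, 3, 0, 1, 1, 1, 1, 1, 1, 1, 2, 1, 3, 0, 1, 1,
  1, 1, 1, 1, 1, 2, 1, 3, 0, 1, 1, 1, 1, 1, 1, 1, 2, 1, 3, 0, 1, 1, 1, 1, 1, 1, 1, 2, 1, 3, 0, 1,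
  1, 1, 1, 1, 1, 1, 2, 1, 1, 1, 2, 1, 3, 0, 1, 1, 1, 1, 1, 1, 1, 2, 1, 3, 0, 1, 1, 1, 1, 1, 1, 1,
  2, 1, 2, 1, 3, 0, 1, 1, 1, 1, 1, 1, 2, 1, 3, 0, 1, 1, 1, 1, 1, 1, 1, 2, 1, 3, 0, 1, 1, 1, 1, 1,
  1, 1, 2, 1, 3, 0, 1, 1, 1, 1, 1, 1, 1, 2, 1, 3, 0, 1, 1, 1, 1, 1, 1, 1, 2, 1, 3, 0, 1, 1, 1, 1,
  1, 1, 1, 2, 1, 3, 0, 1, 1, 1, 1, 1, 1, 1, 2, 1, 1, 1, 2, 1, 3, 0, 1, 1, 1, 1, 1, 1, 1, 2, 1, 3,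
  0, 1, 1, 1, 1, 1, 1, 1, 2, 1, 2, 1, 3, 0, 1, 1, 1, 1, 1, 1, 2, 1, 3, 0, 1, 1, 1, 1, 1, 1, 1, 2,
  1, 3, 0, 1]

def m14 : List ℕ :=
  [2, 1, 1, 1, 2, 1, 3, 0, 1, 1, 1, 1, 1, 1, 2, 1, 3, 0, 1, 1, 1, 1, 1, 1, 1, 2, 1, 3, 0, 1, 1,
  1, 1, 1, 1, 1, 2, 1, 3, 0, 1, 1, 1, 1, 1, 1, 1, 2, 1, 3, 0, 1, 1, 1, 1, 1, 1, 1, 2, 1, 3, 0, 1,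
  1, 1, 1, 1, 1, 1, 2, 1, 3, 0, 1, 1, 1, 1, 1, 1, 1, 2, 1, 1, 1, 2, 1, 3, 0, 1, 1, 1, 1, 1, 1, 2,
  1, 3, 0, 1, 1, 1, 1, 1, 1, 1, 2, 1, 3, 0, 1, 1, 1, 1, 1, 1, 1, 2, 1, 3, 0, 1, 1, 1, 1, 1, 1, 1,
  2, 1, 3, 0, 1, 1, 1, 1, 1, 1, 1, 2, 1, 3, 0, 1, 1, 1, 1, 1, 1, 1, 2, 1, 3, 0, 1, 1, 1, 1, 1, 1,
  1, 2, 1, 1, 1, 2, 1, 3, 0, 1, 1, 1, 1, 1, 1, 2, 1, 3, 0, 1, 1, 1, 1, 1, 1, 1, 2, 1, 3, 0, 1, 1,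
  1, 1, 1, 1, 1, 2, 1, 3, 0, 1, 1, 1, 1, 1, 1, 1, 2, 1, 3, 0, 1, 1, 1, 1, 1, 1, 1, 2, 1, 3, 0, 1,
  1, 1, 1, 1, 1, 1, 2, 1, 3, 0, 1, 1, 1, 1, 1, 1, 1, 2, 1, 1, 1, 2, 1, 3, 0, 1, 1, 1, 1, 1, 1, 2,
  1, 3, 0, 1, 1, 1, 1, 1, 1, 1, 2, 1, 3, 0, 1, 1, 1, 1, 1, 1, 1, 2, 1, 3, 0, 1, 1, 1, 1, 1, 1, 1,
  2, 1, 3, 0, 1, 1, 1, 1, 1, 1, 1, 2, 1, 3, 0, 1, 1, 1, 1, 1, 1, 1, 2, 1, 3, 0, 1, 1, 1, 1, 1, 1,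
  1, 2, 1, 3, 0, 1, 1, 1, 1, 1, 1, 1, 2, 1, 3, 0, 1, 1, 1, 1, 1, 1, 1, 2, 1, 1, 1, 2, 1, 3, 0, 1,
  1, 1, 1, 1, 1, 2, 1, 3, 0, 1, 1, 1, 1, 1, 1, 1, 2, 1, 3, 0, 1, 1, 1, 1, 1, 1, 1, 2, 1, 3, 0, 1,
  1, 1, 1, 1, 1, 1, 2, 1, 3, 0, 1, 1, 1, 1, 1, 1, 1, 2, 1, 3, 0, 1, 1, 1, 1, 1, 1, 1, 2, 1, 3, 0,
  1, 1, 1, 1, 1, 1, 1, 2, 1, 3, 0, 1, 1, 1, 1, 1, 1, 1, 2, 1, 3, 0, 1, 1, 1, 1, 1, 1, 1, 2, 1, 1,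
  1, 2, 1, 3, 0, 1, 1, 1, 1, 1, 1, 2, 1, 3, 0, 1, 1, 1, 1, 1, 1, 1, 2, 1, 3, 0, 1, 1, 1, 1, 1, 1,
  1, 2, 1, 3, 0, 1, 1, 1, 1, 1, 1, 1, 2, 1, 3, 0, 1, 1, 1, 1, 1, 1, 1, 2, 1, 3, 0, 1, 1, 1, 1, 1,
  1, 1, 2, 1, 3, 0, 1, 1, 1, 1, 1, 1, 1, 2, 1, 3, 0, 1, 1, 1, 1, 1, 1, 1, 2, 1, 3, 0, 1, 1, 1, 1,
  1, 1, 1, 2, 1, 3, 0, 1, 1, 1, 1, 1, 1, 1, 2, 1, 3, 0, 1, 1, 1, 1, 1, 1, 1, 2, 1, 3, 0, 1, 1, 1,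
  1, 1, 1, 1, 2, 1, 3, 0, 1, 1, 1, 1, 1, 1, 1, 2, 1, 3, 0, 1, 1, 1, 1, 1, 1, 1, 2, 1, 3, 0, 1, 1,
  1, 1, 1, 1, 1]

def sup : List ℕ :=
  [4, 0, 1, 1, 1, 1, 1, 1, 1, 2, 1, 3, 0, 1, 1, 1, 1, 1, 1, 1, 2, 1, 3, 0, 1, 1, 1, 1, 1, 1, 1,
  2, 1, 3, 0, 1, 1, 1, 1, 1, 1, 1, 2, 1, 3, 0, 1, 1, 1, 1, 1, 1, 1, 2, 1, 3, 0, 1, 1, 1, 1, 1, 1,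
  1, 2, 1, 3, 0, 1, 1, 1, 1, 1, 1, 1, 2, 1, 3, 0, 1, 1, 1, 1, 1, 1, 1, 2, 1, 3, 0, 1, 1, 1, 1, 1,
  1, 1, 2, 1, 3, 0, 1, 1, 1, 1, 1, 1, 1, 2, 1, 3, 0, 1, 1, 1, 1, 1, 1, 1, 2, 1, 3, 0, 1, 1, 1, 1,
  1, 1, 1, 2, 1, 3, 0, 1, 1, 1, 1, 1, 1, 1, 2, 1, 3, 0, 1, 1, 1, 1, 1, 1, 1, 2, 1, 1, 1, 2, 1, 3,
  0, 1, 1, 1, 1, 1, 1, 2, 1, 3, 0, 1, 1, 1, 1, 1, 1, 1, 2, 1, 3, 0, 1, 1, 1, 1, 1, 1, 1, 2, 1, 3,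
  0, 1, 1, 1, 1, 1, 1, 1, 2, 1, 3, 0, 1, 1, 1, 1, 1, 1, 1, 2, 1, 3, 0, 1, 1, 1, 1, 1, 1, 1, 2, 1,
  3, 0, 1, 1, 1, 1, 1, 1, 1, 2, 1, 3, 0, 1, 1, 1, 1, 1, 1, 1, 2, 1, 3, 0, 1, 1, 1, 1, 1, 1, 1, 2,
  1, 1, 1, 2, 1, 3, 0, 1, 1, 1, 1, 1, 1, 2, 1, 3, 0, 1, 1, 1, 1, 1, 1, 1, 2, 1, 3, 0, 1, 1, 1, 1,
  1, 1, 1, 2, 1, 3, 0, 1, 1, 1, 1, 1, 1, 1, 2, 1, 3, 0, 1, 1, 1, 1, 1, 1, 1, 2, 1, 3, 0, 1, 1, 1,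
  1, 1, 1, 1, 2, 1, 3, 0, 1, 1, 1, 1, 1, 1, 1, 2, 1, 1, 1, 2, 1, 3, 0, 1, 1, 1, 1, 1, 1, 2, 1, 3,
  0, 1, 1, 1, 1, 1, 1, 1, 2, 1, 3, 0, 1, 1, 1, 1, 1, 1, 1, 2, 1, 3, 0, 1, 1, 1, 1, 1, 1, 1, 2, 1,
  3, 0, 1, 1, 1, 1, 1, 1, 1, 2, 1, 3, 0, 1, 1, 1, 1, 1, 1, 1, 2, 1, 3, 0, 1, 1, 1, 1, 1, 1, 1, 2,
  1, 1, 1, 2, 1, 3, 0, 1, 1, 1, 1, 1, 1, 1, 2, 1, 3, 0, 1, 1, 1, 1, 1, 1, 1, 2, 1, 2, 1, 3, 0, 1,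
  1, 1, 1, 1, 1, 2, 1, 3, 0, 1, 1, 1, 1, 1, 1, 1, 2, 1, 3, 0, 1, 1, 1, 1, 1, 1, 1, 2, 1, 3, 0, 1,
  1, 1, 1, 1, 1, 1, 2, 1, 3, 0, 1, 1, 1, 1, 1, 1, 1, 2, 1, 3, 0, 1, 1, 1, 1, 1, 1, 1, 2, 1, 3, 0,
  1, 1, 1, 1, 1, 1, 1, 2, 1, 1, 1, 2, 1, 3, 0, 1, 1, 1, 1, 1, 1, 1, 2, 1, 3, 0, 1, 1, 1, 1, 1, 1,
  1, 2, 1, 2, 1, 3, 0, 1, 1, 1, 1, 1, 1, 2, 1, 3, 0, 1, 1, 1, 1, 1, 1, 1, 2, 1, 3, 0, 1, 1, 1, 1,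
  1, 1, 1, 2, 1, 3, 0, 1, 1, 1, 1, 1, 1, 1, 2, 1, 3, 0, 1, 1, 1, 1, 1, 1, 1, 2, 1, 3, 0, 1, 1, 1,
  1, 1, 1, 1, 2, 1, 1, 1, 2, 1, 3, 0, 1, 1, 1, 1, 1, 1, 1, 2, 1, 3, 0, 1, 1, 1, 1, 1, 1, 1, 2, 1,
  2, 1, 3, 0, 1, 1, 1, 1, 1, 1, 2, 1, 3, 0, 1, 1, 1, 1, 1, 1, 1, 2, 1, 3, 0, 1, 1, 1, 1, 1, 1, 1,
  2, 1, 3, 0, 1, 1, 1, 1, 1, 1, 1, 2, 1, 3, 0, 1, 1, 1, 1, 1, 1, 1, 2, 1, 3, 0, 1, 1, 1, 1, 1, 1,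
  1, 2, 1, 1, 1, 2, 1, 3, 0, 1, 1, 1, 1, 1, 1, 1, 2, 1, 3, 0, 1, 1, 1, 1, 1, 1, 1, 2, 1, 3, 0, 1,
  1, 1, 1, 1, 1, 1, 2, 1, 1, 1, 2, 1, 3, 0, 1, 1, 1, 1, 1, 1, 1, 2, 1, 3, 0, 1, 1, 1, 1, 1, 1, 1,
  2, 1, 2, 1, 3, 0, 1, 1, 1, 1, 1, 1, 2, 1, 3, 0, 1, 1, 1, 1, 1, 1, 1, 2, 1, 3, 0, 1, 1, 1, 1, 1,
  1, 1, 2, 1, 3, 0, 1, 1, 1, 1, 1, 1, 1, 2, 1, 3, 0, 1, 1, 1, 1, 1, 1, 1, 2, 1, 3, 0, 1, 1, 1, 1,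
  1, 1, 1, 2, 1, 1, 1, 2, 1, 3, 0, 1, 1, 1, 1, 1, 1, 1, 2, 1, 3, 0, 1, 1, 1, 1, 1, 1, 1, 2, 1, 3,
  0, 1, 1, 1, 1, 1, 1, 1, 2, 1, 1, 1, 2, 1, 3, 0, 1, 1, 1, 1, 1, 1, 1, 2, 1, 3, 0, 5]

def fam : List (List ℕ) :=
  [s0, s1, s2, s3, s4, s5, s6, s7, s8, s9, s10, s11, s12, s13, s14, s15, s16, s17, s18]

end Vale.Agent.P333.H354.T1
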